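import Vale.Agent.H24.TH.Defs

namespace Vale.Agent.H24.TH

open Matrix Finset Filter

section general
variable {n : Type*} [Fintype n] [DecidableEq n]
variable {α : Type*} [Fintype α] [DecidableEq α]

/-- Row A (i). -/
theorem logdet_add_le {P Q : Matrix n n ℝ} (hP : P.PosDef) (hQ : Q.PosDef) :
    Real.log P.det + Real.log Q.det ≤ (P * Q).trace - Fintype.card n := by
  sorry

/-- Row A (ii). -/
theorem logdet_concave {P Q : Matrix n n ℝ} (hP : P.PosDef) (hQ : Q.PosDef) :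
    Real.log P.det + Real.log Q.det ≤ 2 * Real.log (((1 / 2 : ℝ) • (P + Q)).det) := by
  sorry

/-- Row A (iii). -/
theorem E_nonneg {X : Matrix n n ℝ} (hX : X.PosSemidef) {σ : ℝ} (hσ : 0 < σ) : 0 ≤ E σ X := by
  sorry

/-- Row B. -/
theorem logdet_interaction {X Y : Matrix n n ℝ}
    (hX : X.PosSemidef) (hY : Y.PosSemidef) {σ : ℝ} (hσ : 0 < σ) :
    Real.log (1 + σ⁻¹ • (X + Y)).det ≤
      Real.log (1 + σ⁻¹ • X).det + Real.log (1 + σ⁻¹ • Y).det - (gg σ X * gg σ Y).trace := by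
  sorry

/-- Row C. -/
theorem trace_gg_mono {P Q P' Q' : Matrix n n ℝ}
    (hP : P.PosSemidef) (hQ : Q.PosSemidef) (hP' : P'.PosSemidef) (hQ' : Q'.PosSemidef)
    {σ : ℝ} (hσ : 0 < σ) :
    (gg σ P * gg σ Q).trace ≤ (gg σ (P + P') * gg σ (Q + Q')).trace := by
  sorry

/-- Row D1: the one-step inequality for one Gram matrix. -/
theorem one_step_E {X : Matrix (Bool × α) (Bool × α) ℝ} (hX : X.PosSemidef)
    (Y : Bool → Bool → Matrix α α ℝ) (hY : ∀ a b, (Y a b).PosSemidef)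
    (hXY : ∀ a, Y a false + Y a true = child X a a) {σ : ℝ} (hσ : 0 < σ) :
    E σ X + σ / 2 * (gg σ X * Z α * gg σ X * Z α).trace ≤
      ∑ a : Bool, ∑ b : Bool, E (σ / 4) (Y a b) := by
  sorry

/-- Row D2: the one-step inequality at a fixed level. -/
theorem one_step (F0 F1 F2 : Matrix (Bool × α) (Bool × α) ℝ) {σ : ℝ} (hσ : 0 < σ) :
    En σ F0 F1 F2 + σ / 2 * (Jn σ F0 F1 + Jn σ F1 F2 + Jn σ F2 F0) ≤
      ∑ a : Bool, ∑ b : Bool,
        En (σ / 4) (child F0 a b) (child F1 b (xor a b)) (child F2 (xor a b) a) := by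
  sorry

/-- Row F: right singular vectors (columns of the orthogonal matrix `U`). -/
theorem spectral (A : Matrix n n ℝ) :
    ∃ (U : Matrix n n ℝ) (p : n → ℝ),
      U * Uᵀ = 1 ∧ Uᵀ * U = 1 ∧ (∀ i, 0 ≤ p i) ∧ (A * U)ᵀ * (A * U) = Matrix.diagonal p := by
  sorry

/-- Row G: formula for the interaction in singular coordinates. -/
theorem Jn_eq (A B U W : Matrix (Bool × α) (Bool × α) ℝ) (p q : Bool × α → ℝ)
    (hU : U * Uᵀ = 1) (hU' : Uᵀ * U = 1) (hp : ∀ i, 0 ≤ p i)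
    (hA : (A * U)ᵀ * (A * U) = Matrix.diagonal p)
    (hW : W * Wᵀ = 1) (hW' : Wᵀ * W = 1) (hq : ∀ i, 0 ≤ q i)
    (hB : (B * W)ᵀ * (B * W) = Matrix.diagonal q) {σ : ℝ} (hσ : 0 < σ) :
    Jn σ A B = ∑ i, ∑ j, p i / ((σ + p i) * (σ + q j)) * ((Uᵀ * Z α * B * W) i j) ^ 2 := by
  sorry

/-- Row H: abstract Cauchy-Schwarz for one class. -/
theorem class_bound (a b d : Matrix n n ℝ) (p r : n → ℝ)
    (hp : ∀ i, 0 ≤ p i) (hr : ∀ i, 0 ≤ r i)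
    (hb : bᵀ * b = Matrix.diagonal r) (hd : dᵀ * d = Matrix.diagonal p)
    (s : n → n → Prop) [∀ i j, Decidable (s i j)] (t : n → n → Prop) [∀ i j, Decidable (t i j)] :
    |∑ i, ∑ j, ∑ k, (if s i j ∧ t i k then a i j * b j k * d k i else 0)| ≤
      1 / 2 * (∑ i, ∑ j, if s i j then Real.sqrt (p i) * a i j ^ 2 else 0) +
      1 / 2 * (∑ i, ∑ k, if t i k then r k / Real.sqrt (p i) * d k i ^ 2 else 0) := by
  sorry

/-- Row I: bound of the trilinear Haar form by the interactions (eventually in `K`). -/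
theorem T3_bound (F0 F1 F2 : Matrix (Bool × α) (Bool × α) ℝ) {c : ℝ} (hc : 0 < c) :
    ∀ᶠ K : ℕ in atTop,
      |T3 F0 F1 F2| ≤ 16 * ∑ i ∈ range (2 * K + 1), (c * (2 ^ i / 2 ^ K)) ^ 3 *
        (Jn ((c * (2 ^ i / 2 ^ K)) ^ 2) F0 F1 + Jn ((c * (2 ^ i / 2 ^ K)) ^ 2) F1 F2 +
          Jn ((c * (2 ^ i / 2 ^ K)) ^ 2) F2 F0) := by
  sorry

end general

/-- Row J (i): scalar sum at the points. -/
theorem scalar_sum (K : ℕ) {x : ℝ} (hx : 0 ≤ x) :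
    ∑ i ∈ range (2 * K + 1), ((2 : ℝ) ^ i / 2 ^ K) *
      (x - (2 ^ i / 2 ^ K) ^ 2 * Real.log (1 + x / (2 ^ i / 2 ^ K) ^ 2)) ≤ 5 * (x * Real.sqrt x) := by
  sorry

/-- Row J (ii): leaf energy. -/
theorem leaf_bound (K : ℕ) (F0 F1 F2 : Matrix (Idx 0) (Idx 0) ℝ) :
    EnK K 0 F0 F1 F2 ≤ 60 * ∑ x, ∑ y, (|F0 x y| ^ 3 + |F1 x y| ^ 3 + |F2 x y| ^ 3) := by
  sorry

/-- Row K: the discrete theorem. -/
theorem discrete (j : ℕ) (F0 F1 F2 : Matrix (Idx j) (Idx j) ℝ) :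
    V j F0 F1 F2 ≤ 2000 * ∑ x, ∑ y, (|F0 x y| ^ 3 + |F1 x y| ^ 3 + |F2 x y| ^ 3) := by
  sorry

end Vale.Agent.H24.TH
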